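import Mathlib
import Vale.Agent.P042.Ruzsa

namespace Vale.Agent.Results.P042.SquareDiffLowerBound

open Finset Vale.Agent.P042

/-- `A ⊆ [N]` and no difference of two elements of `A` is a nonzero value `h(n)` with `n ≥ 1`. -/
def Admissible (h : Polynomial ℤ) (N : ℕ) (A : Finset ℕ) : Prop :=
  A ⊆ Finset.Icc 1 N ∧
    ∀ a ∈ A, ∀ b ∈ A, ∀ n : ℕ, 1 ≤ n →
      (a : ℤ) - (b : ℤ) = h.eval (n : ℤ) → (a : ℤ) - (b : ℤ) = 0

/-- `r_h(N)`: the largest size of an admissible subset of `[N]`. -/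
noncomputable def r (h : Polynomial ℤ) (N : ℕ) : ℕ :=
  sSup {k : ℕ | ∃ A : Finset ℕ, Admissible h N A ∧ A.card = k}

/-- the system: one class modulo `41` and ten classes modulo `205`. -/
def sys : Finset (ℕ × ℕ) :=
  {(41, 0), (205, 19), (205, 38), (205, 52), (205, 75), (205, 94), (205, 108), (205, 137),
    (205, 151), (205, 170), (205, 181)}

theorem not_dvd_of_zmod (k : ℕ) (D : ℤ) (h : ∀ z : ZMod k, z ^ 2 - (D : ZMod k) ≠ 0) :
    ∀ y : ℤ, ¬ (k : ℤ) ∣ y ^ 2 - D := by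
  intro y hy
  have h1 := (ZMod.intCast_zmod_eq_zero_iff_dvd (y ^ 2 - D) k).2 hy
  push_cast at h1
  exact h (y : ZMod k) h1

theorem sys_check : ∀ p ∈ sys, ∀ q ∈ sys, p ≠ q →
    (∀ z : ZMod 41, z ^ 2 - (((p.2 : ℤ) - (q.2 : ℤ) : ℤ) : ZMod 41) ≠ 0) ∨
    (5 ∣ p.1 ∧ 5 ∣ q.1 ∧ ∀ z : ZMod 5, z ^ 2 - (((p.2 : ℤ) - (q.2 : ℤ) : ℤ) : ZMod 5) ≠ 0) := by
  decide

theorem sys_good : GoodSystem sys where
  sqfree := by
    intro p hp
    have h : ∀ p ∈ sys, p.1 = 41 ∨ p.1 = 205 := by decide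
    rcases h p hp with h | h
    · rw [h]
      exact (by norm_num : Nat.Prime 41).squarefree
    · rw [h, (by norm_num : (205 : ℕ) = 5 * 41), Nat.squarefree_mul_iff]
      exact ⟨by norm_num, (by norm_num : Nat.Prime 5).squarefree,
        (by norm_num : Nat.Prime 41).squarefree⟩
  two_le := by decide
  lt := by decide
  zero_mem := ⟨41, by decide⟩
  sep := by
    intro p hp q hq hpq
    have h41 : ∀ p ∈ sys, 41 ∣ p.1 := by decide
    rcases sys_check p hp q hq hpq with h | ⟨h1, h2, h⟩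
    · exact ⟨41, h41 p hp, h41 q hq, not_dvd_of_zmod 41 _ h⟩
    · exact ⟨5, h1, h2, not_dvd_of_zmod 5 _ h⟩

theorem le_rpow_aux (a x : ℝ) (ha : 0 < a) (hx : 0 < x) (h : a ^ 32 * x ^ 15 ≤ 1) :
    a ≤ x ^ (1 - 2 * ((47 : ℝ) / 64)) := by
  have h1 : a ^ 32 ≤ (x ^ 15)⁻¹ := by
    rw [le_inv_comm₀ (by positivity) (by positivity)]
    rw [← one_div, le_div_iff₀ (by positivity)]
    linarith
  have h2 : a = (a ^ 32) ^ ((1 : ℝ) / 32) := by
    rw [← Real.rpow_natCast, ← Real.rpow_mul ha.le]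
    norm_num
  have h3 : x ^ (1 - 2 * ((47 : ℝ) / 64)) = ((x ^ 15)⁻¹) ^ ((1 : ℝ) / 32) := by
    rw [← Real.rpow_natCast, ← Real.rpow_neg hx.le, ← Real.rpow_mul hx.le]
    norm_num
  rw [h3, h2]
  rw [← h2]
  calc a = (a ^ 32) ^ ((1 : ℝ) / 32) := h2
    _ ≤ ((x ^ 15)⁻¹) ^ ((1 : ℝ) / 32) := Real.rpow_le_rpow (by positivity) h1 (by norm_num)

theorem sys_sum : 1 ≤ ∑ p ∈ sys, (p.1 : ℝ) ^ (1 - 2 * ((47 : ℝ) / 64)) := by
  have h41 : (0.17539 : ℝ) ≤ (41 : ℝ) ^ (1 - 2 * ((47 : ℝ) / 64)) :=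
    le_rpow_aux _ _ (by norm_num) (by norm_num) (by norm_num)
  have h205 : (0.08248 : ℝ) ≤ (205 : ℝ) ^ (1 - 2 * ((47 : ℝ) / 64)) :=
    le_rpow_aux _ _ (by norm_num) (by norm_num) (by norm_num)
  have hs : ∑ p ∈ sys, (p.1 : ℝ) ^ (1 - 2 * ((47 : ℝ) / 64))
      = (41 : ℝ) ^ (1 - 2 * ((47 : ℝ) / 64)) + 10 * (205 : ℝ) ^ (1 - 2 * ((47 : ℝ) / 64)) := by
    unfold sys
    repeat rw [Finset.sum_insert (by decide)]
    rw [Finset.sum_singleton]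
    push_cast
    ring
  rw [hs]
  linarith

theorem result : ∃ c : ℝ, 0 < c ∧
    ∀ N : ℕ, c * (N : ℝ) ^ ((47 : ℝ) / 64) ≤ (r (Polynomial.X ^ 2) N : ℝ) := by
  obtain ⟨c, hc, h⟩ := exists_large_set sys_good ((47 : ℝ) / 64) (by norm_num) sys_sum
  refine ⟨c, hc, fun N => ?_⟩
  obtain ⟨A, hA1, hA2, hA3⟩ := h N
  refine le_trans hA3 ?_
  have hbdd : BddAbove {k : ℕ | ∃ A : Finset ℕ, Admissible (Polynomial.X ^ 2) N A ∧ A.card = k} := by
    refine ⟨N, ?_⟩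
    rintro k ⟨B, ⟨hB, -⟩, rfl⟩
    simpa using Finset.card_le_card hB
  have hmem : A.card ∈ {k : ℕ | ∃ A : Finset ℕ, Admissible (Polynomial.X ^ 2) N A ∧ A.card = k} := by
    refine ⟨A, ⟨hA1, ?_⟩, rfl⟩
    intro a ha b hb n _ hn
    by_contra hne
    have hab : a ≠ b := by
      rintro rfl
      exact hne (sub_self _)
    apply hA2 a ha b hb hab (n : ℤ)
    rw [hn]
    simp
  exact_mod_cast le_csSup hbdd hmem

end Vale.Agent.Results.P042.SquareDiffLowerBound
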