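import Mathlib
import Vale.Agent.Results.P042.SquareDiffLowerBound

namespace Vale.Agent.Results.P042.T_ExplicitSets

/-- There is `c > 0` such that for every `N` some subset of `{1, ..., N}` with at least
`c N ^ (47/64)` elements has no two distinct elements whose difference is a perfect square. -/
theorem result : ∃ c : ℝ, 0 < c ∧ ∀ N : ℕ, ∃ A : Finset ℕ, A ⊆ Finset.Icc 1 N ∧
    (∀ a ∈ A, ∀ b ∈ A, a ≠ b → ∀ y : ℤ, (a : ℤ) - (b : ℤ) ≠ y ^ 2) ∧
    c * (N : ℝ) ^ ((47 : ℝ) / 64) ≤ (A.card : ℝ) :=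
  Vale.Agent.P042.exists_large_set Vale.Agent.Results.P042.SquareDiffLowerBound.sys_good
    ((47 : ℝ) / 64) (by norm_num) Vale.Agent.Results.P042.SquareDiffLowerBound.sys_sum

end Vale.Agent.Results.P042.T_ExplicitSets
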